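import Vale.Agent.P197.Main
import Vale.Agent.P197.Bridge
import Vale.Agent.P197.SaxlStatement

/-!
# P197: Saxl's conjecture

For every `m`, the tensor square of the Specht module of the staircase `(m, m - 1, …, 1)` contains
every irreducible complex representation of the symmetric group on `m (m + 1) / 2` points.
-/

namespace Vale.Agent.Results.P197.SaxlConjecture

open Vale.Agent.P197

/-- Saxl's conjecture. -/
theorem result :
    ∀ m : ℕ, Nonempty (Fin (m * (m + 1) / 2) ≃ (Specht.staircase m).cells) ∧
      ∀ T : Fin (m * (m + 1) / 2) ≃ (Specht.staircase m).cells,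
        SpechtIrreducible T ∧
        (∀ (nu : YoungDiagram) (U : Fin (m * (m + 1) / 2) ≃ nu.cells), KroneckerPos T U) ∧
        SpechtSquareUniversal T := by
  intro m
  refine ⟨⟨(Fintype.equivFinOfCardEq ?_).symm⟩, fun T =>
    ⟨Specht.spechtRep_irreducible T, fun nu U => ?_, universalSquare_of_good good_all m T⟩⟩
  · rw [Fintype.card_coe]
    exact Specht.card_staircase m
  · refine exists_intertwiner T U (good_all m _ _ ?_)
    have h := Fintype.card_congr ((cellsEquiv nu).trans (U.symm.trans T))
    rw [Fintype.card_sigma, Fintype.card_coe] at h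
    simp only [Fintype.card_fin] at h
    rw [h, N_eq]
    exact Specht.card_staircase m

end Vale.Agent.Results.P197.SaxlConjecture
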